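import Vale.Agent.Borsuk.D63Main

namespace Vale.Agent.Results.P052.Dim63

/-- Borsuk's conjecture fails in dimension 63: a finite set of positive diameter in Euclidean
`ℝ^63` (it has 321 points) is not a union of 64 subsets of strictly smaller diameter. -/
theorem result : ∃ Y : Set (EuclideanSpace ℝ (Fin 63)), Y.Finite ∧ 0 < Metric.diam Y ∧
    ¬ ∃ A : Fin 64 → Set (EuclideanSpace ℝ (Fin 63)),
      Y = ⋃ i, A i ∧ ∀ i, Metric.diam (A i) < Metric.diam Y :=
  Vale.Agent.Borsuk.D63.borsuk63

end Vale.Agent.Results.P052.Dim63
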